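import Vale.Agent.H43.P160.Main

namespace Vale.Agent.Results.P160.A_LowerBound

open Vale.Agent.H43.P160 Finset

/-- The explicit lower bound, for every `n ≥ 2`. -/
lemma explicit_bound (n : ℕ) (hn : 2 ≤ n) :
    ((n : ℝ) * (n - 1)) / 2 ^ n * (1 - ((n : ℝ) ^ 2 - n - 2) / 2 ^ n) ≤ singProb n := by
  classical
  have hmain := main_nat n
  set K : ℕ := 2 ^ Fintype.card (Sym2 (Fin n)) with hK
  set S : ℕ := (univ.filter fun u : Sym2 (Fin n) → Bool => (toMat u).det = 0).card with hS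
  have hq : singProb n = (S : ℝ) / (K : ℝ) := by
    unfold singProb
    rw [ncard_symSign, ncard_sing]
  have hn1 : 1 ≤ n := by omega
  have hM2 : 2 ≤ n * (n - 1) := by
    have : 1 ≤ n - 1 := by omega
    nlinarith
  have hpow : (2 : ℕ) ^ n * 2 ^ n = 2 * 2 ^ (2 * n - 1) := by
    rw [← pow_add, ← pow_succ']
    congr 1
    omega
  -- cast everything to the reals
  have hmainR : (2 * (n * (n - 1) * K) * 2 ^ (2 * n - 1) : ℕ) ≤
      ((2 * S * 2 ^ n * 2 ^ (2 * n - 1)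
        + n * (n - 1) * (n * (n - 1) - 2) * K * 2 ^ n : ℕ) : ℝ) := by
    exact_mod_cast hmain
  have hpowR : ((2 : ℝ) ^ n) * 2 ^ n = 2 * 2 ^ (2 * n - 1) := by
    exact_mod_cast hpow
  push_cast [Nat.cast_sub hn1, Nat.cast_sub hM2] at hmainR
  have hKpos : (0 : ℝ) < (K : ℝ) := by
    rw [hK]; positivity
  have hapos : (0 : ℝ) < (2 : ℝ) ^ n := by positivity
  set a : ℝ := (2 : ℝ) ^ n with ha
  set P : ℝ := (2 : ℝ) ^ (2 * n - 1) with hP
  set M : ℝ := (n : ℝ) * ((n : ℝ) - 1) with hM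
  have hPa : P = a * a / 2 := by linarith
  rw [hq, le_div_iff₀ hKpos]
  have hkey : M * K * a ^ 2 ≤ S * a ^ 3 + M * (M - 2) * K * a := by
    rw [hPa] at hmainR
    nlinarith [hmainR]
  have hrew : M / a * (1 - ((n : ℝ) ^ 2 - n - 2) / a) * K =
      (M * K * a ^ 2 - M * (M - 2) * K * a) / a ^ 3 := by
    rw [hM]
    field_simp
  rw [hrew, div_le_iff₀ (by positivity)]
  linarith

theorem result :
    (∀ n : ℕ, 2 ≤ n →
      ((n : ℝ) * (n - 1)) / 2 ^ n * (1 - ((n : ℝ) ^ 2 - n - 2) / 2 ^ n) ≤ singProb n) ∧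
    (∀ ε : ℝ, 0 < ε → ∃ n₀ : ℕ, ∀ n : ℕ, n₀ ≤ n →
      (1 - ε) * (n : ℝ) ^ 2 / 2 ^ n ≤ singProb n) := by
  refine ⟨explicit_bound, ?_⟩
  intro ε hε
  have htend := tendsto_pow_const_div_const_pow_of_one_lt 2 (one_lt_two : (1 : ℝ) < 2)
  have hev : ∀ᶠ n : ℕ in Filter.atTop, (n : ℝ) ^ 2 / 2 ^ n < ε / 2 :=
    htend.eventually (gt_mem_nhds (by positivity))
  obtain ⟨n₁, hn₁⟩ := Filter.eventually_atTop.mp hev
  obtain ⟨n₂, hn₂⟩ := exists_nat_ge (2 / ε)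
  refine ⟨max (max n₁ n₂) 2, ?_⟩
  intro n hn
  have h1 : n₁ ≤ n := le_trans (le_trans (le_max_left _ _) (le_max_left _ _)) hn
  have h2 : n₂ ≤ n := le_trans (le_trans (le_max_right _ _) (le_max_left _ _)) hn
  have h3 : 2 ≤ n := le_trans (le_max_right _ _) hn
  refine le_trans ?_ (explicit_bound n h3)
  have hapos : (0 : ℝ) < (2 : ℝ) ^ n := by positivity
  have hsmall := hn₁ n h1
  have hnR : (2 : ℝ) / ε ≤ n := le_trans hn₂ (by exact_mod_cast h2)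
  have hn2R : (2 : ℝ) ≤ n := by exact_mod_cast h3
  have hεn : 2 ≤ ε * n := by
    rw [div_le_iff₀ hε] at hnR
    linarith
  set a : ℝ := (2 : ℝ) ^ n with ha
  set x : ℝ := (n : ℝ) with hx
  -- x ^ 2 / a < ε / 2
  have hsm : x ^ 2 < ε / 2 * a := by
    rwa [div_lt_iff₀ hapos] at hsmall
  rw [div_mul_eq_mul_div, div_le_div_iff_of_pos_right hapos]
  -- goal: (1 - ε) * x ^ 2 ≤ x * (x - 1) * (1 - (x ^ 2 - x - 2) / a)
  have hfrac : (x ^ 2 - x - 2) / a ≤ ε / 2 := by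
    rw [div_le_iff₀ hapos]
    nlinarith
  have hfrac0 : 0 ≤ (x ^ 2 - x - 2) / a := by
    apply div_nonneg _ hapos.le
    nlinarith
  have hxx : 0 ≤ x * (x - 1) := by nlinarith
  calc (1 - ε) * x ^ 2 ≤ x * (x - 1) * (1 - ε / 2) := by nlinarith
    _ ≤ x * (x - 1) * (1 - (x ^ 2 - x - 2) / a) := by
        apply mul_le_mul_of_nonneg_left _ hxx
        linarith

end Vale.Agent.Results.P160.A_LowerBound
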